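import Vale.Agent.P181.H583.HWDef

set_option autoImplicit false

/-!
# P181, SZ: highest weight polynomials under an embedding of the set of columns
-/

open MvPolynomial

namespace Vale.Agent.P181.SZR4

open Vale.Agent.P181.T4 (HW rowOp rowOp_apply mem_HW)

section
variable {m : ℕ} {σ τ : Type}

/-- The map of variables. -/
def vm (m : ℕ) (g : σ → τ) : Fin m × σ → Fin m × τ := fun p => (p.1, g p.2)

lemma vm_injective {g : σ → τ} (hg : Function.Injective g) :
    Function.Injective (vm m g) := by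
  rintro ⟨i, j⟩ ⟨i', j'⟩ h
  simp only [vm, Prod.mk.injEq] at h
  rw [h.1, hg h.2]

lemma notMem_range_vm {g : σ → τ} {i : Fin m} {j : τ} (hj : j ∉ Set.range g) :
    (i, j) ∉ Set.range (vm m g) := by
  rintro ⟨⟨i', j'⟩, h⟩
  simp only [vm, Prod.mk.injEq] at h
  exact hj ⟨j', h.2⟩

/-- The exponents of a renamed polynomial. -/
lemma coeff_ren {g : σ → τ} (hg : Function.Injective g) {f : MvPolynomial (Fin m × σ) ℂ}
    {v : Fin m × τ →₀ ℕ} (hv : coeff v (rename (vm m g) f) ≠ 0) :
    ∃ u : Fin m × σ →₀ ℕ, coeff u f ≠ 0 ∧ (∀ i j, v (i, g j) = u (i, j)) ∧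
      ∀ i j, j ∉ Set.range g → v (i, j) = 0 := by
  obtain ⟨u, hu, hu'⟩ := coeff_rename_ne_zero (vm m g) f v hv
  refine ⟨u, hu', fun i j => ?_, fun i j hj => ?_⟩
  · rw [← hu]
    exact Finsupp.mapDomain_apply (vm_injective hg) u (i, j)
  · rw [← hu]
    exact Finsupp.mapDomain_of_notMem_range u _ (notMem_range_vm hj)

lemma pderiv_ren_of_notMem {g : σ → τ} (f : MvPolynomial (Fin m × σ) ℂ) {i : Fin m} {j : τ}
    (hj : j ∉ Set.range g) : pderiv (i, j) (rename (vm m g) f) = 0 := by
  classical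
  apply pderiv_eq_zero_of_notMem_vars
  intro h
  obtain ⟨p, _, hp⟩ := Finset.mem_image.1 (vars_rename (vm m g) f h)
  exact notMem_range_vm hj ⟨p, hp⟩

variable [Fintype σ] [Fintype τ]

lemma rowOp_ren {g : σ → τ} (hg : Function.Injective g) (f : MvPolynomial (Fin m × σ) ℂ)
    (s i : Fin m) : rowOp s i (rename (vm m g) f) = rename (vm m g) (rowOp s i f) := by
  rw [rowOp_apply, rowOp_apply, map_sum]
  symm
  apply Fintype.sum_of_injective g hg
  · intro j hj
    rw [pderiv_ren_of_notMem f hj, mul_zero]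
  · intro j
    rw [map_mul, rename_X]
    congr 1
    exact (pderiv_rename (vm_injective hg) (i, j) f).symm

/-- Renaming the columns keeps the highest weight polynomials. -/
lemma ren_mem_HW {g : σ → τ} (hg : Function.Injective g) {f : MvPolynomial (Fin m × σ) ℂ}
    {mu : Fin m → ℕ} (hf : f ∈ HW m σ mu) : rename (vm m g) f ∈ HW m τ mu := by
  rw [mem_HW] at hf ⊢
  refine ⟨fun v hv i => ?_, fun s i h => by rw [rowOp_ren hg, hf.2 s i h, map_zero]⟩
  obtain ⟨u, hu, h1, h2⟩ := coeff_ren hg hv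
  rw [← hf.1 u hu i]
  symm
  exact Fintype.sum_of_injective g hg _ _ (fun j hj => h2 i j hj) (fun j => (h1 i j).symm)

end

end Vale.Agent.P181.SZR4
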