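import Vale.Agent.P181.SZ.Defs
import Vale.Agent.P181.SZR4.Ren

set_option autoImplicit false

/-!
# P181, SZ: few letters
-/

open MvPolynomial

namespace Vale.Agent.P181.SZR4

open Vale.Agent.P181.T4 (HW rowOp rowOp_apply mem_HW)
open Vale.Agent.P181.SZ

lemma PK_le_HW (m : ℕ) (σ : Type) [Fintype σ] (d : σ → ℕ) (mu : Fin m → ℕ) :
    PK m σ d mu ≤ HW m σ mu := fun _ hf => hf.1

instance finiteDimensional_PK (m : ℕ) (σ : Type) [Fintype σ] (d : σ → ℕ) (mu : Fin m → ℕ) :
    FiniteDimensional ℂ (PK m σ d mu) :=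
  Submodule.finiteDimensional_of_le (PK_le_HW m σ d mu)

/-- Families of highest weight polynomials with pairwise different column degrees. -/
lemma sum_finrank_le {m J : ℕ} {mu : Fin m → ℕ} {ι : Type} [Fintype ι] (σ : ι → Type)
    [∀ i, Fintype (σ i)] (d : ∀ i, σ i → ℕ) (g : ∀ i, σ i → Fin J)
    (hg : ∀ i, Function.Injective (g i)) (D : ι → Fin J → ℕ) (hD : Function.Injective D)
    (h1 : ∀ i j, D i (g i j) = d i j) (h2 : ∀ i j, j ∉ Set.range (g i) → D i j = 0) :
    ∑ i, Module.finrank ℂ (PK m (σ i) (d i) mu) ≤ Module.finrank ℂ (HW m (Fin J) mu) := by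
  classical
  have hcol : ∀ i (f : PK m (σ i) (d i) mu) (v : Fin m × Fin J →₀ ℕ),
      coeff v (rename (vm m (g i)) (f : MvPolynomial (Fin m × σ i) ℂ)) ≠ 0 →
      (fun j => ∑ r, v (r, j)) = D i := by
    intro i f v hv
    obtain ⟨u, hu, hu1, hu2⟩ := coeff_ren (hg i) hv
    funext j
    by_cases hj : j ∈ Set.range (g i)
    · obtain ⟨j', rfl⟩ := hj
      rw [h1, ← f.2.2.1 u hu j']
      exact Finset.sum_congr rfl fun r _ => hu1 r j'
    · rw [h2 i j hj]
      exact Finset.sum_eq_zero fun r _ => hu2 r j hj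
  let L : (∀ i, PK m (σ i) (d i) mu) →ₗ[ℂ] HW m (Fin J) mu :=
    { toFun := fun F => ∑ i, ⟨rename (vm m (g i)) (F i : MvPolynomial (Fin m × σ i) ℂ),
        ren_mem_HW (hg i) (F i).2.1⟩
      map_add' := fun F G => by
        rw [← Finset.sum_add_distrib]
        refine Finset.sum_congr rfl fun i _ => Subtype.ext ?_
        exact map_add (rename (vm m (g i))) (F i : MvPolynomial (Fin m × σ i) ℂ) (G i)
      map_smul' := fun c F => by
        rw [RingHom.id_apply, Finset.smul_sum]
        refine Finset.sum_congr rfl fun i _ => Subtype.ext ?_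
        exact map_smul (rename (vm m (g i))) c (F i : MvPolynomial (Fin m × σ i) ℂ) }
  have hL : Function.Injective L := by
    rw [← LinearMap.ker_eq_bot, LinearMap.ker_eq_bot']
    intro F hF
    funext i
    apply Subtype.ext
    have h3 : rename (vm m (g i)) (F i : MvPolynomial (Fin m × σ i) ℂ) = 0 := by
      ext v
      rw [coeff_zero]
      by_contra hv
      have h4 : coeff v ((L F : HW m (Fin J) mu) : MvPolynomial (Fin m × Fin J) ℂ) = 0 := by
        rw [hF]
        exact coeff_zero v
      have h5 : ((L F : HW m (Fin J) mu) : MvPolynomial (Fin m × Fin J) ℂ) =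
          ∑ i, rename (vm m (g i)) (F i : MvPolynomial (Fin m × σ i) ℂ) := by
        change ((∑ i, (⟨rename (vm m (g i)) (F i : MvPolynomial (Fin m × σ i) ℂ),
          ren_mem_HW (hg i) (F i).2.1⟩ : HW m (Fin J) mu) : HW m (Fin J) mu) :
            MvPolynomial (Fin m × Fin J) ℂ) = _
        rw [AddSubmonoidClass.coe_finsetSum]
      rw [h5, coeff_sum, Finset.sum_eq_single i] at h4
      · exact hv h4
      · intro i' _ hi'
        by_contra h6
        exact hi' (hD ((hcol i' (F i') v h6).symm.trans (hcol i (F i) v hv)))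
      · intro h
        exact absurd (Finset.mem_univ i) h
    exact (rename_injective _ (vm_injective (hg i))) (h3.trans (map_zero _).symm)
  rw [← Module.finrank_pi_fintype ℂ]
  exact LinearMap.finrank_le_finrank_of_injective hL

/-- The padded list of the letters. -/
noncomputable def pad (J : ℕ) (k : Multiset ℕ) : Fin J → ℕ := fun j => k.toList.getD j 0

lemma pad_inj {J : ℕ} {k k' : Multiset ℕ} (hk : ∀ x ∈ k, 0 < x) (hk' : ∀ x ∈ k', 0 < x)
    (hJ : Multiset.card k ≤ J) (hJ' : Multiset.card k' ≤ J) (h : pad J k = pad J k') :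
    k = k' := by
  have key : ∀ {k k' : Multiset ℕ}, (∀ x ∈ k', 0 < x) → Multiset.card k' ≤ J →
      pad J k = pad J k' → k'.toList.length ≤ k.toList.length := by
    intro k k' hk' hJ' h
    by_contra hlt
    rw [not_le] at hlt
    have h1 : k.toList.length < J := by
      have := Multiset.length_toList k'
      omega
    have h2 := congrFun h ⟨k.toList.length, h1⟩
    simp only [pad] at h2
    rw [List.getD_eq_default _ _ le_rfl, List.getD_eq_getElem _ _ hlt] at h2
    have h3 := hk' _ (Multiset.mem_toList.1 (List.getElem_mem hlt))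
    omega
  have hl : k.toList.length = k'.toList.length := le_antisymm (key hk hJ h.symm) (key hk' hJ' h)
  rw [← Multiset.coe_toList k, ← Multiset.coe_toList k']
  congr 1
  apply List.ext_getElem hl
  intro i hi hi'
  have h1 : i < J := by
    have := Multiset.length_toList k
    omega
  have h2 := congrFun h ⟨i, h1⟩
  simp only [pad] at h2
  rwa [List.getD_eq_getElem _ _ hi, List.getD_eq_getElem _ _ hi'] at h2

open scoped Classical in
/-- **(R4)** -/
theorem few_s : FewS := by
  intro m w J mu _
  set S := (PT w).filter (fun k => Multiset.card k ≤ J) with hS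
  have hmem : ∀ k ∈ S, Multiset.card k ≤ J ∧ ∀ x ∈ k, 0 < x := by
    intro k hk
    rw [hS, Finset.mem_filter, PT, Finset.mem_filter] at hk
    exact ⟨hk.2, fun x hx => lt_of_lt_of_le two_pos (hk.1.2 x hx)⟩
  have hlen : ∀ k : S, (k : Multiset ℕ).toList.length ≤ J := fun k => by
    rw [Multiset.length_toList]
    exact (hmem k k.2).1
  rw [← Finset.sum_coe_sort S]
  exact sum_finrank_le (fun k : S => Fin (k : Multiset ℕ).toList.length)
    (fun k j => (k : Multiset ℕ).toList.get j) (fun k => Fin.castLE (hlen k))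
    (fun k => Fin.castLE_injective (hlen k)) (fun k => pad J k)
    (fun k k' h => Subtype.ext (pad_inj (hmem k k.2).2 (hmem k' k'.2).2 (hmem k k.2).1
      (hmem k' k'.2).1 h))
    (fun k j => List.getD_eq_getElem _ _ j.2)
    (fun k j hj => List.getD_eq_default _ _ (by
      by_contra hlt
      rw [not_le] at hlt
      exact hj ⟨⟨j, hlt⟩, Fin.ext rfl⟩))

end Vale.Agent.P181.SZR4
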